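import Mathlib

/-!
P323: the Partition Principle in permutation models (continuous sets over a topological group).
-/

namespace Vale.Agent.P323

open Cardinal MulAction

universe u

theorem pp_perm {G : Type u} [Group G] [TopologicalSpace G] [IsTopologicalGroup G]
    (U : Subgroup G) (hU : IsOpen (U : Set G))
    (PP : ∀ (X Y : Type u) [MulAction U X] [MulAction U Y],
      (∀ x : X, IsOpen (stabilizer U x : Set U)) → (∀ y : Y, IsOpen (stabilizer U y : Set U)) →
      ∀ f : X → Y, Function.Surjective f → (∀ (g : U) x, f (g • x) = g • f x) →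
      ∃ V : Subgroup G, IsOpen (V : Set G) ∧ V ≤ U ∧ ∃ j : Y → X, Function.Injective j ∧
        ∀ g : U, (g : G) ∈ V → ∀ y, j (g • y) = g • j y)
    (good : ∀ V : Subgroup G, IsOpen (V : Set G) → V ≤ U → ∃ M : Subgroup G,
      IsOpen (M : Set G) ∧ M ≤ V ∧ ∀ V' : Subgroup G, IsOpen (V' : Set G) → V' ≤ U → M < V' →
        ∃ W : Subgroup G, M ≤ W ∧ W ≤ V' ∧
          ∀ g ∈ U, W ≠ V' ⊓ M.map (MulAut.conj g).toMonoidHom) :
    ∃ V : Subgroup G, IsOpen (V : Set G) ∧ ∀ W : Subgroup G, IsOpen (W : Set G) → V ≤ W := by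
  classical
  let Good : Subgroup G → Prop := fun M => IsOpen (M : Set G) ∧ M ≤ U ∧
    ∀ V' : Subgroup G, IsOpen (V' : Set G) → V' ≤ U → M < V' →
      ∃ W : Subgroup G, M ≤ W ∧ W ≤ V' ∧
        ∀ g ∈ U, W ≠ V' ⊓ M.map (MulAut.conj g).toMonoidHom
  let r : Subgroup G → Subgroup G → Prop := WellOrderingRel
  have hr : WellFounded r := (inferInstance : IsWellOrder (Subgroup G) WellOrderingRel).wf
  -- some conjugate of `M` lies below `N`
  let Below : Subgroup G → Subgroup G → Prop := fun M N =>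
    ∃ g ∈ U, ∀ m ∈ M, g * m * g⁻¹ ∈ N
  let Kept : Subgroup G → Prop := fun M => Good M ∧ ∀ M', Good M' → r M' M → ¬ Below M' M
  let I : Type u := {M : Subgroup G // Kept M}
  let P : Type u := Σ i : I, {W : Subgroup G // i.1 ≤ W ∧ W ≤ U}
  let s : I → I → Prop := fun i k => r i.1 k.1
  haveI : IsWellOrder I s :=
    RelEmbedding.isWellOrder (s := r) ⟨⟨Subtype.val, Subtype.val_injective⟩, Iff.rfl⟩
  let base : Cardinal.{u} := max ℵ₀ (max #G (max #(Subgroup G) #I))
  obtain ⟨o₀, ho₀⟩ : ∃ o₀ : Ordinal.{u}, base ≤ ℵ_ o₀ := by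
    obtain ⟨o, ho⟩ := mem_range_aleph_iff.2 (le_max_left ℵ₀ (max #G (max #(Subgroup G) #I)))
    exact ⟨o, ho.ge⟩
  let c : I → Cardinal.{u} := fun i => ℵ_ (Order.succ (o₀ + Ordinal.typein s i))
  let T : I → Type u := fun i => (c i).out
  let X : Type u := Σ p : P, (U ⧸ p.1.1.subgroupOf U) × T p.1
  let Y : Type u := Σ p : P, (U ⧸ p.2.1.subgroupOf U) × T p.1
  letI mX : MulAction U X :=
    { smul := fun g x => ⟨x.1, (g • x.2.1, x.2.2)⟩
      one_smul := fun ⟨p, q, t⟩ => by
        show (⟨p, ((1 : U) • q, t)⟩ : X) = _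
        rw [one_smul]
      mul_smul := fun g h ⟨p, q, t⟩ => by
        show (⟨p, ((g * h) • q, t)⟩ : X) = ⟨p, (g • h • q, t)⟩
        rw [mul_smul] }
  letI mY : MulAction U Y :=
    { smul := fun g x => ⟨x.1, (g • x.2.1, x.2.2)⟩
      one_smul := fun ⟨p, q, t⟩ => by
        show (⟨p, ((1 : U) • q, t)⟩ : Y) = _
        rw [one_smul]
      mul_smul := fun g h ⟨p, q, t⟩ => by
        show (⟨p, ((g * h) • q, t)⟩ : Y) = ⟨p, (g • h • q, t)⟩
        rw [mul_smul] }
  have coset : ∀ (L : Subgroup G) (g a : U),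
      g • (a : U ⧸ L.subgroupOf U) = (a : U ⧸ L.subgroupOf U) ↔
        (a : G)⁻¹ * g * a ∈ L := by
    intro L g a
    rw [MulAction.Quotient.smul_coe, eq_comm, QuotientGroup.eq, Subgroup.mem_subgroupOf]
    simp [mul_assoc]
  have openStab : ∀ L : Subgroup G, IsOpen (L : Set G) → ∀ a : U,
      IsOpen {g : U | (a : G)⁻¹ * g * a ∈ L} := fun L hL a =>
    hL.preimage (by fun_prop)
  have hX : ∀ x : X, IsOpen (stabilizer U x : Set U) := by
    rintro ⟨p, q, t⟩
    induction q using QuotientGroup.induction_on with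
    | _ a =>
      have : (stabilizer U (⟨p, ((a : U ⧸ p.1.1.subgroupOf U), t)⟩ : X) : Set U) =
          {g : U | (a : G)⁻¹ * g * a ∈ p.1.1} := by
        ext g
        rw [SetLike.mem_coe, mem_stabilizer_iff]
        constructor
        · intro h
          exact (coset _ g a).1 (congrArg Prod.fst (eq_of_heq (Sigma.mk.inj_iff.1 h).2))
        · intro h
          show (⟨p, (g • (a : U ⧸ p.1.1.subgroupOf U), t)⟩ : X) = _
          rw [(coset _ g a).2 h]
      rw [this]
      exact openStab _ p.1.2.1.1 a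
  have hY : ∀ y : Y, IsOpen (stabilizer U y : Set U) := by
    rintro ⟨p, q, t⟩
    induction q using QuotientGroup.induction_on with
    | _ a =>
      have : (stabilizer U (⟨p, ((a : U ⧸ p.2.1.subgroupOf U), t)⟩ : Y) : Set U) =
          {g : U | (a : G)⁻¹ * g * a ∈ p.2.1} := by
        ext g
        rw [SetLike.mem_coe, mem_stabilizer_iff]
        constructor
        · intro h
          exact (coset _ g a).1 (congrArg Prod.fst (eq_of_heq (Sigma.mk.inj_iff.1 h).2))
        · intro h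
          show (⟨p, (g • (a : U ⧸ p.2.1.subgroupOf U), t)⟩ : Y) = _
          rw [(coset _ g a).2 h]
      rw [this]
      exact openStab _ (Subgroup.isOpen_mono p.2.2.1 p.1.2.1.1) a
  let π : ∀ p : P, U ⧸ p.1.1.subgroupOf U → U ⧸ p.2.1.subgroupOf U := fun p =>
    Quotient.map' id (by
      intro a b h
      rw [QuotientGroup.leftRel_apply] at h ⊢
      exact p.2.2.1 h)
  let f : X → Y := fun x => ⟨x.1, (π x.1 x.2.1, x.2.2)⟩
  have hf : Function.Surjective f := by
    rintro ⟨p, q, t⟩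
    induction q using QuotientGroup.induction_on with
    | _ a => exact ⟨⟨p, (a, t)⟩, rfl⟩
  have hfe : ∀ (g : U) x, f (g • x) = g • f x := by
    rintro g ⟨p, q, t⟩
    induction q using QuotientGroup.induction_on with
    | _ a => rfl
  obtain ⟨V, hVo, hVU, j, hj, hje⟩ := PP X Y hX hY f hf hfe
  refine ⟨V, hVo, fun W₀ hW₀ => ?_⟩
  by_contra hnot
  have hVW : IsOpen ((V ⊓ W₀ : Subgroup G) : Set G) := hVo.inter hW₀
  obtain ⟨M₀, hM₀o, hM₀V, hM₀g⟩ := good _ hVW (inf_le_left.trans hVU)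
  let S : Set (Subgroup G) := {M | Good M ∧ Below M (V ⊓ W₀)}
  have hS : S.Nonempty :=
    ⟨M₀, ⟨hM₀o, hM₀V.trans (inf_le_left.trans hVU), hM₀g⟩, 1, U.one_mem,
      fun m hm => by simpa using hM₀V hm⟩
  obtain ⟨M, ⟨hMgood, g, hg, hMg⟩, hmin⟩ := hr.has_min S hS
  have hkept : Kept M := ⟨hMgood, fun M' hM' hlt ⟨k, hk, hk'⟩ =>
    hmin M' ⟨hM', g * k, U.mul_mem hg hk, fun m hm => by
      simpa [mul_assoc] using hMg _ (hk' m hm)⟩ hlt⟩
  -- pull `V` back along the conjugation
  let V' : Subgroup G := V.comap (MulAut.conj g).toMonoidHom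
  have memV' : ∀ x, x ∈ V' ↔ g * x * g⁻¹ ∈ V := fun x => Iff.rfl
  have hV'o : IsOpen (V' : Set G) :=
    hVo.preimage (show Continuous fun x : G => g * x * g⁻¹ by fun_prop)
  have hV'U : V' ≤ U := fun x hx => by
    have := U.mul_mem (U.mul_mem (U.inv_mem hg) (hVU ((memV' x).1 hx))) hg
    simpa [mul_assoc] using this
  have hMV' : M < V' := by
    refine SetLike.lt_iff_le_and_exists.2 ⟨fun m hm => (hMg m hm).1, ?_⟩
    by_contra hc
    push Not at hc
    refine hnot fun v hv => ?_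
    have hm : g⁻¹ * v * g ∈ M := hc _ ((memV' _).2 (by simpa [mul_assoc] using hv))
    simpa [mul_assoc] using (hMg _ hm).2
  obtain ⟨W, hMW, hWV', hWne⟩ := hMgood.2.2 V' hV'o hV'U hMV'
  let i : I := ⟨M, hkept⟩
  let p : P := ⟨i, W, hMW, hWV'.trans hV'U⟩
  let y : T i → Y := fun t => ⟨p, ((⟨g, hg⟩ : U), t)⟩
  have hy : Function.Injective y := fun t t' h =>
    congrArg Prod.snd (eq_of_heq (Sigma.mk.inj_iff.1 h).2)
  -- the images lie in earlier components
  have early : ∀ t, s (j (y t)).1.1 i := by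
    intro t
    obtain ⟨⟨k, Wk⟩, q, t', hjy⟩ : ∃ (p' : P) (q : U ⧸ p'.1.1.subgroupOf U) (t' : T p'.1),
        j (y t) = ⟨p', (q, t')⟩ := ⟨(j (y t)).1, (j (y t)).2.1, (j (y t)).2.2, rfl⟩
    rw [hjy]
    induction q using QuotientGroup.induction_on with
    | _ a =>
      have hstab : ∀ v : U, (v : G) ∈ V → (g⁻¹ * v * g ∈ W ↔ (a : G)⁻¹ * v * a ∈ k.1) := by
        intro v hv
        have h2 : v • j (y t) = j (v • y t) := (hje v hv (y t)).symm
        constructor
        · intro hw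
          have : v • y t = y t := by
            show (⟨p, (v • ((⟨g, hg⟩ : U) : U ⧸ p.2.1.subgroupOf U), t)⟩ : Y) = _
            rw [(coset _ v ⟨g, hg⟩).2 hw]
          rw [this, hjy] at h2
          exact (coset _ v a).1 (congrArg Prod.fst (eq_of_heq (Sigma.mk.inj_iff.1 h2).2))
        · intro hk
          have : v • j (y t) = j (y t) := by
            rw [hjy]
            show (⟨⟨k, Wk⟩, (v • (a : U ⧸ k.1.subgroupOf U), t')⟩ : X) = _
            rw [(coset _ v a).2 hk]
          rw [this] at h2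
          exact (coset _ v ⟨g, hg⟩).1 (congrArg Prod.fst (eq_of_heq (Sigma.mk.inj_iff.1 (hj h2.symm)).2))
      have hMk : Below M k.1 := by
        refine ⟨(a : G)⁻¹ * g, U.mul_mem (U.inv_mem a.2) hg, fun m hm => ?_⟩
        have hv : g * m * g⁻¹ ∈ V := (hMg m hm).1
        have := (hstab ⟨_, hVU hv⟩ hv).1 (by simpa [mul_assoc] using hMW hm)
        simpa [mul_assoc] using this
      rcases trichotomous_of r k.1 M with h | h | h
      · exact h
      · exfalso
        refine hWne (g⁻¹ * a) (U.mul_mem (U.inv_mem hg) a.2) ?_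
        ext x
        rw [Subgroup.mem_inf, Subgroup.mem_map]
        constructor
        · intro hx
          have hv : g * x * g⁻¹ ∈ V := (memV' x).1 (hWV' hx)
          have := (hstab ⟨_, hVU hv⟩ hv).1 (by simpa [mul_assoc] using hx)
          exact ⟨hWV' hx, _, h ▸ this, by simp [MulAut.conj_apply, mul_assoc]⟩
        · rintro ⟨hx', m, hm, rfl⟩
          have hv := (memV' _).1 hx'
          simp only [MulEquiv.coe_toMonoidHom, MulAut.conj_apply] at hv ⊢
          have := (hstab ⟨_, hVU hv⟩ hv).2 (by simpa [mul_assoc, h] using hm)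
          simpa [mul_assoc] using this
      · exact absurd hMk (k.2.2 M hMgood h)
  -- counting
  let Z : Type u := Σ k : {k : I // s k i}, {W : Subgroup G // k.1.1 ≤ W ∧ W ≤ U} ×
    ((U ⧸ k.1.1.subgroupOf U) × T k.1)
  let z : T i → Z := fun t =>
    ⟨⟨(j (y t)).1.1, early t⟩, ((j (y t)).1.2, (j (y t)).2)⟩
  have hz : Function.Injective z := by
    intro t t' h
    apply hy
    apply hj
    let back : Z → X := fun w => ⟨⟨w.1.1, w.2.1⟩, w.2.2⟩
    exact congrArg back h
  have hcard := Cardinal.mk_le_of_injective hz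
  set ti := o₀ + Ordinal.typein s i with hti
  have hbi : base ≤ ℵ_ ti := ho₀.trans (aleph_le_aleph.2 le_self_add)
  have hℵ : ℵ₀ ≤ ℵ_ ti := aleph0_le_aleph _
  have hb1 : #G ≤ ℵ_ ti := le_trans (le_max_of_le_right (le_max_left _ _)) hbi
  have hb2 : #(Subgroup G) ≤ ℵ_ ti :=
    le_trans (le_max_of_le_right (le_max_of_le_right (le_max_left _ _))) hbi
  have hb3 : #I ≤ ℵ_ ti :=
    le_trans (le_max_of_le_right (le_max_of_le_right (le_max_right _ _))) hbi
  have hZ : #Z ≤ ℵ_ ti := by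
    refine (mk_sigma _).le.trans ((sum_le_mk_mul_iSup _).trans ?_)
    refine (mul_le_mul' ((mk_subtype_le _).trans hb3) (ciSup_le' fun k => ?_)).trans
      (mul_eq_self hℵ).le
    simp only [mk_prod, lift_id]
    have hT : #(T k.1) ≤ ℵ_ ti := by
      rw [show #(T k.1) = c k.1 from mk_out _]
      refine aleph_le_aleph.2 (Order.succ_le_of_lt ?_)
      exact (add_lt_add_iff_left o₀).2 ((Ordinal.typein_lt_typein s).2 k.2)
    exact (mul_le_mul' ((mk_subtype_le _).trans hb2)
      (mul_le_mul' ((mk_le_of_surjective Quotient.mk_surjective).trans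
        ((mk_subtype_le _).trans hb1)) hT)).trans
      (by rw [mul_eq_self hℵ, mul_eq_self hℵ])
  have : c i ≤ ℵ_ ti := by
    calc c i = #(T i) := (mk_out _).symm
      _ ≤ #Z := hcard
      _ ≤ ℵ_ ti := hZ
  exact absurd (aleph_le_aleph.1 this) (not_le.2 (Order.lt_succ ti))

end Vale.Agent.P323
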