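import Mathlib

/-!
P323: the Partition Principle in permutation models whose supports have orbits smaller than the
continuum. Nested splitting of intervals of open subgroups gives continuum many open subgroups,
while the principle injects them into one orbit.
-/

namespace Vale.Agent.P323

open Cardinal MulAction

universe u

variable {G : Type u} [Group G]

theorem index_step [TopologicalSpace G] [IsTopologicalGroup G]
    (U : Subgroup G) (hU : IsOpen (U : Set G))
    (PP : ∀ (X Y : Type u) [MulAction U X] [MulAction U Y],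
      (∀ x : X, IsOpen (stabilizer U x : Set U)) → (∀ y : Y, IsOpen (stabilizer U y : Set U)) →
      ∀ f : X → Y, Function.Surjective f → (∀ (g : U) x, f (g • x) = g • f x) →
      ∃ V : Subgroup G, IsOpen (V : Set G) ∧ V ≤ U ∧ ∃ j : Y → X, Function.Injective j ∧
        ∀ g : U, (g : G) ∈ V → ∀ y, j (g • y) = g • j y) :
    ∃ V M : Subgroup G, IsOpen (V : Set G) ∧ V ≤ U ∧ IsOpen (M : Set G) ∧ M ≤ U ∧
      ∀ N : Subgroup G, IsOpen (N : Set G) → N ≤ V →
        (∃ a ∈ U, ∀ v ∈ V, a * v * a⁻¹ ∈ N) ∧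
        ∃ a ∈ U, ∀ x, x ∈ N ↔ x ∈ V ∧ a⁻¹ * x * a ∈ M := by
  classical
  let r : Subgroup G → Subgroup G → Prop := WellOrderingRel
  have hr : WellFounded r := (inferInstance : IsWellOrder (Subgroup G) WellOrderingRel).wf
  let Cand : Subgroup G → Prop := fun M => IsOpen (M : Set G) ∧ M ≤ U
  let Below : Subgroup G → Subgroup G → Prop := fun M N =>
    ∃ g ∈ U, ∀ m ∈ M, g * m * g⁻¹ ∈ N
  have trans : ∀ A B C, Below A B → Below B C → Below A C := fun A B C ⟨g, hg, h1⟩ ⟨k, hk, h2⟩ =>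
    ⟨k * g, U.mul_mem hk hg, fun m hm => by simpa [mul_assoc] using h2 _ (h1 m hm)⟩
  let Kept : Subgroup G → Prop := fun M => Cand M ∧ ∀ M', Cand M' → r M' M → ¬ Below M' M
  let I : Type u := {M : Subgroup G // Kept M}
  let P : Type u := Σ i : I, {W : Subgroup G // i.1 ≤ W ∧ W ≤ U}
  let s : I → I → Prop := fun i k => r i.1 k.1
  haveI : IsWellOrder I s :=
    RelEmbedding.isWellOrder (s := r) ⟨⟨Subtype.val, Subtype.val_injective⟩, Iff.rfl⟩
  let base : Cardinal.{u} := max ℵ₀ (max #G (max #(Subgroup G) #I))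
  obtain ⟨o₀, ho₀⟩ : ∃ o₀ : Ordinal.{u}, base ≤ ℵ_ o₀ := by
    obtain ⟨o, ho⟩ := mem_range_aleph_iff.2 (le_max_left ℵ₀ (max #G (max #(Subgroup G) #I)))
    exact ⟨o, ho.ge⟩
  let c : I → Cardinal.{u} := fun i => ℵ_ (Order.succ (o₀ + Ordinal.typein s i))
  let T : I → Type u := fun i => (c i).out
  let X : Type u := Σ p : P, (U ⧸ p.1.1.subgroupOf U) × T p.1
  let Y : Type u := Σ p : P, (U ⧸ p.2.1.subgroupOf U) × T p.1
  letI mX : MulAction U X :=
    { smul := fun g x => ⟨x.1, (g • x.2.1, x.2.2)⟩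
      one_smul := fun ⟨p, q, t⟩ => by
        show (⟨p, ((1 : U) • q, t)⟩ : X) = _
        rw [one_smul]
      mul_smul := fun g h ⟨p, q, t⟩ => by
        show (⟨p, ((g * h) • q, t)⟩ : X) = ⟨p, (g • h • q, t)⟩
        rw [mul_smul] }
  letI mY : MulAction U Y :=
    { smul := fun g x => ⟨x.1, (g • x.2.1, x.2.2)⟩
      one_smul := fun ⟨p, q, t⟩ => by
        show (⟨p, ((1 : U) • q, t)⟩ : Y) = _
        rw [one_smul]
      mul_smul := fun g h ⟨p, q, t⟩ => by
        show (⟨p, ((g * h) • q, t)⟩ : Y) = ⟨p, (g • h • q, t)⟩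
        rw [mul_smul] }
  have coset : ∀ (L : Subgroup G) (g a : U),
      g • (a : U ⧸ L.subgroupOf U) = (a : U ⧸ L.subgroupOf U) ↔
        (a : G)⁻¹ * g * a ∈ L := by
    intro L g a
    rw [MulAction.Quotient.smul_coe, eq_comm, QuotientGroup.eq, Subgroup.mem_subgroupOf]
    simp [mul_assoc]
  have openStab : ∀ L : Subgroup G, IsOpen (L : Set G) → ∀ a : U,
      IsOpen {g : U | (a : G)⁻¹ * g * a ∈ L} := fun L hL a => hL.preimage (by fun_prop)
  have hX : ∀ x : X, IsOpen (stabilizer U x : Set U) := by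
    rintro ⟨p, q, t⟩
    induction q using QuotientGroup.induction_on with
    | _ a =>
      have : (stabilizer U (⟨p, ((a : U ⧸ p.1.1.subgroupOf U), t)⟩ : X) : Set U) =
          {g : U | (a : G)⁻¹ * g * a ∈ p.1.1} := by
        ext g
        rw [SetLike.mem_coe, mem_stabilizer_iff]
        constructor
        · intro h
          exact (coset _ g a).1 (congrArg Prod.fst (eq_of_heq (Sigma.mk.inj_iff.1 h).2))
        · intro h
          show (⟨p, (g • (a : U ⧸ p.1.1.subgroupOf U), t)⟩ : X) = _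
          rw [(coset _ g a).2 h]
      rw [this]
      exact openStab _ p.1.2.1.1 a
  have hY : ∀ y : Y, IsOpen (stabilizer U y : Set U) := by
    rintro ⟨p, q, t⟩
    induction q using QuotientGroup.induction_on with
    | _ a =>
      have : (stabilizer U (⟨p, ((a : U ⧸ p.2.1.subgroupOf U), t)⟩ : Y) : Set U) =
          {g : U | (a : G)⁻¹ * g * a ∈ p.2.1} := by
        ext g
        rw [SetLike.mem_coe, mem_stabilizer_iff]
        constructor
        · intro h
          exact (coset _ g a).1 (congrArg Prod.fst (eq_of_heq (Sigma.mk.inj_iff.1 h).2))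
        · intro h
          show (⟨p, (g • (a : U ⧸ p.2.1.subgroupOf U), t)⟩ : Y) = _
          rw [(coset _ g a).2 h]
      rw [this]
      exact openStab _ (Subgroup.isOpen_mono p.2.2.1 p.1.2.1.1) a
  let π : ∀ p : P, U ⧸ p.1.1.subgroupOf U → U ⧸ p.2.1.subgroupOf U := fun p =>
    Quotient.map' id (by
      intro a b h
      rw [QuotientGroup.leftRel_apply] at h ⊢
      exact p.2.2.1 h)
  let f : X → Y := fun x => ⟨x.1, (π x.1 x.2.1, x.2.2)⟩
  have hf : Function.Surjective f := by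
    rintro ⟨p, q, t⟩
    induction q using QuotientGroup.induction_on with
    | _ a => exact ⟨⟨p, (a, t)⟩, rfl⟩
  have hfe : ∀ (g : U) x, f (g • x) = g • f x := by
    rintro g ⟨p, q, t⟩
    induction q using QuotientGroup.induction_on with
    | _ a => rfl
  obtain ⟨V, hVo, hVU, j, hj, hje⟩ := PP X Y hX hY f hf hfe
  -- an overgroup of a kept group, seen from `V`, is seen in the orbit of that kept group
  have key : ∀ M, Kept M → ∀ g ∈ U, (∀ m ∈ M, g * m * g⁻¹ ∈ V) →
      ∀ W, M ≤ W → W ≤ U →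
        ∃ a ∈ U, ∀ v ∈ V, g⁻¹ * v * g ∈ W ↔ a⁻¹ * v * a ∈ M := by
    intro M hkept g hg hMg W hMW hWU
    by_contra hno
    let i : I := ⟨M, hkept⟩
    let p : P := ⟨i, W, hMW, hWU⟩
    let y : T i → Y := fun t => ⟨p, ((⟨g, hg⟩ : U), t)⟩
    have hy : Function.Injective y := fun t t' h =>
      congrArg Prod.snd (eq_of_heq (Sigma.mk.inj_iff.1 h).2)
    have early : ∀ t, s (j (y t)).1.1 i := by
      intro t
      obtain ⟨⟨k, Wk⟩, q, t', hjy⟩ : ∃ (p' : P) (q : U ⧸ p'.1.1.subgroupOf U) (t' : T p'.1),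
          j (y t) = ⟨p', (q, t')⟩ := ⟨(j (y t)).1, (j (y t)).2.1, (j (y t)).2.2, rfl⟩
      rw [hjy]
      induction q using QuotientGroup.induction_on with
      | _ a =>
        have hstab : ∀ v : U, (v : G) ∈ V →
            (g⁻¹ * v * g ∈ W ↔ (a : G)⁻¹ * v * a ∈ k.1) := by
          intro v hv
          have h2 : v • j (y t) = j (v • y t) := (hje v hv (y t)).symm
          constructor
          · intro hw
            have : v • y t = y t := by
              show (⟨p, (v • ((⟨g, hg⟩ : U) : U ⧸ p.2.1.subgroupOf U), t)⟩ : Y) = _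
              rw [(coset _ v ⟨g, hg⟩).2 hw]
            rw [this, hjy] at h2
            exact (coset _ v a).1 (congrArg Prod.fst (eq_of_heq (Sigma.mk.inj_iff.1 h2).2))
          · intro hk
            have : v • j (y t) = j (y t) := by
              rw [hjy]
              show (⟨⟨k, Wk⟩, (v • (a : U ⧸ k.1.subgroupOf U), t')⟩ : X) = _
              rw [(coset _ v a).2 hk]
            rw [this] at h2
            exact (coset _ v ⟨g, hg⟩).1
              (congrArg Prod.fst (eq_of_heq (Sigma.mk.inj_iff.1 (hj h2.symm)).2))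
        have hMk : Below M k.1 := by
          refine ⟨(a : G)⁻¹ * g, U.mul_mem (U.inv_mem a.2) hg, fun m hm => ?_⟩
          have hv : g * m * g⁻¹ ∈ V := hMg m hm
          have := (hstab ⟨_, hVU hv⟩ hv).1 (by simpa [mul_assoc] using hMW hm)
          simpa [mul_assoc] using this
        rcases trichotomous_of r k.1 M with h | h | h
        · exact h
        · exact absurd ⟨(a : G), a.2, fun v hv => by simpa [h] using hstab ⟨v, hVU hv⟩ hv⟩ hno
        · exact absurd hMk (k.2.2 M hkept.1 h)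
    let Z : Type u := Σ k : {k : I // s k i}, {W : Subgroup G // k.1.1 ≤ W ∧ W ≤ U} ×
      ((U ⧸ k.1.1.subgroupOf U) × T k.1)
    let z : T i → Z := fun t =>
      ⟨⟨(j (y t)).1.1, early t⟩, ((j (y t)).1.2, (j (y t)).2)⟩
    have hz : Function.Injective z := by
      intro t t' h
      apply hy
      apply hj
      let back : Z → X := fun w => ⟨⟨w.1.1, w.2.1⟩, w.2.2⟩
      exact congrArg back h
    have hcard := Cardinal.mk_le_of_injective hz
    set ti := o₀ + Ordinal.typein s i with hti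
    have hbi : base ≤ ℵ_ ti := ho₀.trans (aleph_le_aleph.2 le_self_add)
    have hℵ : ℵ₀ ≤ ℵ_ ti := aleph0_le_aleph _
    have hb1 : #G ≤ ℵ_ ti := le_trans (le_max_of_le_right (le_max_left _ _)) hbi
    have hb2 : #(Subgroup G) ≤ ℵ_ ti :=
      le_trans (le_max_of_le_right (le_max_of_le_right (le_max_left _ _))) hbi
    have hb3 : #I ≤ ℵ_ ti :=
      le_trans (le_max_of_le_right (le_max_of_le_right (le_max_right _ _))) hbi
    have hZ : #Z ≤ ℵ_ ti := by
      refine (mk_sigma _).le.trans ((sum_le_mk_mul_iSup _).trans ?_)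
      refine (mul_le_mul' ((mk_subtype_le _).trans hb3) (ciSup_le' fun k => ?_)).trans
        (mul_eq_self hℵ).le
      simp only [mk_prod, lift_id]
      have hT : #(T k.1) ≤ ℵ_ ti := by
        rw [show #(T k.1) = c k.1 from mk_out _]
        refine aleph_le_aleph.2 (Order.succ_le_of_lt ?_)
        exact (add_lt_add_iff_left o₀).2 ((Ordinal.typein_lt_typein s).2 k.2)
      exact (mul_le_mul' ((mk_subtype_le _).trans hb2)
        (mul_le_mul' ((mk_le_of_surjective Quotient.mk_surjective).trans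
          ((mk_subtype_le _).trans hb1)) hT)).trans
        (by rw [mul_eq_self hℵ, mul_eq_self hℵ])
    have : c i ≤ ℵ_ ti :=
      calc c i = #(T i) := (mk_out _).symm
        _ ≤ #Z := hcard
        _ ≤ ℵ_ ti := hZ
    exact absurd (aleph_le_aleph.1 this) (not_le.2 (Order.lt_succ ti))
  -- a kept group inside a given open group
  have exists_kept : ∀ N : Subgroup G, IsOpen (N : Set G) → N ≤ V → ∃ M, Kept M ∧ Below M N := by
    intro N hN hNV
    obtain ⟨M, ⟨hM, hMN⟩, hmin⟩ := hr.has_min {M | Cand M ∧ Below M N}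
      ⟨N, ⟨hN, hNV.trans hVU⟩, 1, U.one_mem, fun m hm => by simpa using hm⟩
    exact ⟨M, ⟨hM, fun M' hM' hlt hb => hmin M' ⟨hM', trans _ _ _ hb hMN⟩ hlt⟩, hMN⟩
  have fixedV : ∀ M, Kept M → Below M V → Below V M := by
    rintro M hM ⟨g, hg, hMV⟩
    obtain ⟨a, ha, hiff⟩ := key M hM g hg hMV U hM.1.2 le_rfl
    exact ⟨a⁻¹, U.inv_mem ha, fun v hv => by
      simpa using (hiff v hv).1 (U.mul_mem (U.mul_mem (U.inv_mem hg) (hVU hv)) hg)⟩
  obtain ⟨M, hM, hMV⟩ := exists_kept V hVo le_rfl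
  refine ⟨V, M, hVo, hVU, hM.1.1, hM.1.2, fun N hN hNV => ?_⟩
  obtain ⟨M', hM', g, hg, hMN⟩ := exists_kept N hN hNV
  have hM'V : Below M' V := ⟨g, hg, fun m hm => hNV (hMN m hm)⟩
  have hVM' := fixedV M' hM' hM'V
  have heq : M' = M := by
    rcases trichotomous_of r M' M with h | h | h
    · exact absurd (trans _ _ _ hM'V (fixedV M hM hMV)) (hM.2 M' hM'.1 h)
    · exact h
    · exact absurd (trans _ _ _ hMV hVM') (hM'.2 M hM.1 h)
  subst heq
  obtain ⟨b, hb, hVb⟩ := trans _ _ _ hVM' ⟨g, hg, hMN⟩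
  refine ⟨⟨b, hb, hVb⟩, ?_⟩
  let W : Subgroup G := N.comap (MulAut.conj g).toMonoidHom
  have memW : ∀ x, x ∈ W ↔ g * x * g⁻¹ ∈ N := fun x => Iff.rfl
  obtain ⟨a, ha, hiff⟩ := key M' hM' g hg (fun m hm => hNV (hMN m hm)) W
    (fun m hm => hMN m hm) (fun x hx => by
      have := U.mul_mem (U.mul_mem (U.inv_mem hg) (hVU (hNV ((memW x).1 hx)))) hg
      simpa [mul_assoc] using this)
  refine ⟨a, ha, fun x => ⟨fun hx => ⟨hNV hx, (hiff x (hNV hx)).1 ?_⟩, fun hx => ?_⟩⟩
  · rw [memW]; simpa [mul_assoc] using hx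
  · have := (memW _).1 ((hiff x hx.1).2 hx.2)
    simpa [mul_assoc] using this

/-- Nested splitting: branches give distinct groups. -/
theorem continuum_between (Good : Subgroup G → Subgroup G → Prop)
    (lt : ∀ A B, Good A B → B < A)
    (split : ∀ A B, Good A B → ∃ C B', B ≤ B' ∧ B' < C ∧ C < A ∧ Good A C ∧ Good C B')
    {A₀ B₀ : Subgroup G} (h₀ : Good A₀ B₀) :
    Cardinal.continuum ≤ #{W : Subgroup G // B₀ ≤ W ∧ W ≤ A₀} := by
  classical
  choose C C' hBC hC hCA hup hdown using split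
  let child : Bool → {p : Subgroup G × Subgroup G // Good p.1 p.2} →
      {p : Subgroup G × Subgroup G // Good p.1 p.2}
    | true, ⟨⟨A, B⟩, h⟩ => ⟨(A, C A B h), hup A B h⟩
    | false, ⟨⟨A, B⟩, h⟩ =>
      ⟨(C _ _ (hdown A B h), C' _ _ (hdown A B h)), hdown _ _ (hdown A B h)⟩
  have child_le : ∀ b q, (child b q).1.1 ≤ q.1.1 ∧ q.1.2 ≤ (child b q).1.2 := by
    rintro (_ | _) ⟨⟨A, B⟩, h⟩
    · exact ⟨(hCA _ _ _).le.trans (hCA A B h).le, (hBC A B h).trans (hBC _ _ _)⟩
    · exact ⟨le_rfl, ((hBC A B h).trans (hC A B h).le)⟩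
  have child_gap : ∀ q, (child false q).1.1 < (child true q).1.2 := by
    rintro ⟨⟨A, B⟩, h⟩
    exact hCA _ _ _
  let node : (ℕ → Bool) → ℕ → {p : Subgroup G × Subgroup G // Good p.1 p.2} := fun σ n =>
    Nat.rec ⟨(A₀, B₀), h₀⟩ (fun k q => child (σ k) q) n
  have anti : ∀ σ, Antitone fun n => (node σ n).1.1 := fun σ =>
    antitone_nat_of_succ_le fun n => (child_le (σ n) (node σ n)).1
  have mono : ∀ σ, Monotone fun n => (node σ n).1.2 := fun σ =>
    monotone_nat_of_le_succ fun n => (child_le (σ n) (node σ n)).2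
  have cross : ∀ σ m n, (node σ m).1.2 ≤ (node σ n).1.1 := fun σ m n =>
    (mono σ (le_max_left m n)).trans
      ((lt _ _ (node σ (max m n)).2).le.trans (anti σ (le_max_right m n)))
  have agree : ∀ σ τ : ℕ → Bool, ∀ n, (∀ k < n, σ k = τ k) → node σ n = node τ n := by
    intro σ τ n
    induction n with
    | zero => exact fun _ => rfl
    | succ n ih =>
      intro h
      show child (σ n) (node σ n) = child (τ n) (node τ n)
      rw [ih (fun k hk => h k (hk.trans n.lt_succ_self)), h n n.lt_succ_self]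
  let w : ULift.{u} (ℕ → Bool) → {W : Subgroup G // B₀ ≤ W ∧ W ≤ A₀} := fun σ =>
    ⟨⨅ n, (node σ.down n).1.1, le_iInf fun n => cross σ.down 0 n,
      iInf_le (fun n => (node σ.down n).1.1) 0⟩
  have sep : ∀ σ τ : ℕ → Bool, ∀ n, (∀ k < n, σ k = τ k) → σ n = true → τ n = false →
      (⨅ m, (node τ m).1.1) < ⨅ m, (node σ m).1.1 := by
    intro σ τ n h hσ hτ
    have h1 : (node τ (n + 1)).1.1 < (node σ (n + 1)).1.2 := by
      show (child (τ n) (node τ n)).1.1 < (child (σ n) (node σ n)).1.2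
      rw [hσ, hτ, agree σ τ n h]
      exact child_gap _
    exact (iInf_le _ (n + 1)).trans_lt (h1.trans_le (le_iInf fun m => cross σ (n + 1) m))
  have hw : Function.Injective w := by
    rintro ⟨σ⟩ ⟨τ⟩ h
    by_contra hne
    obtain ⟨m, hm⟩ : ∃ m, σ m ≠ τ m := by
      by_contra hc
      push Not at hc
      exact hne (congrArg ULift.up (funext hc))
    let n := Nat.find (⟨m, hm⟩ : ∃ m, σ m ≠ τ m)
    have hn : σ n ≠ τ n := Nat.find_spec (⟨m, hm⟩ : ∃ m, σ m ≠ τ m)
    have hlt : ∀ k < n, σ k = τ k := fun k hk => not_not.1 (Nat.find_min _ hk)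
    have he : (⨅ k, (node σ k).1.1) = ⨅ k, (node τ k).1.1 := congrArg Subtype.val h
    cases hσ : σ n <;> cases hτ : τ n
    · exact hn (hσ.trans hτ.symm)
    · exact (sep τ σ n (fun k hk => (hlt k hk).symm) hτ hσ).ne he
    · exact (sep σ τ n hlt hσ hτ).ne he.symm
    · exact hn (hσ.trans hτ.symm)
  refine le_trans (le_of_eq ?_) (Cardinal.mk_le_of_injective hw)
  simp

theorem pp_small_index [TopologicalSpace G] [IsTopologicalGroup G]
    (U₀ : Subgroup G) (hU₀ : IsOpen (U₀ : Set G))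
    (PP : ∀ U : Subgroup G, IsOpen (U : Set G) → U ≤ U₀ →
      ∀ (X Y : Type u) [MulAction U X] [MulAction U Y],
      (∀ x : X, IsOpen (stabilizer U x : Set U)) → (∀ y : Y, IsOpen (stabilizer U y : Set U)) →
      ∀ f : X → Y, Function.Surjective f → (∀ (g : U) x, f (g • x) = g • f x) →
      ∃ V : Subgroup G, IsOpen (V : Set G) ∧ V ≤ U ∧ ∃ j : Y → X, Function.Injective j ∧
        ∀ g : U, (g : G) ∈ V → ∀ y, j (g • y) = g • j y)
    (hno : ¬ ∃ V : Subgroup G, IsOpen (V : Set G) ∧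
      ∀ W : Subgroup G, IsOpen (W : Set G) → V ≤ W) :
    (∃ M : Subgroup G, IsOpen (M : Set G) ∧ M ≤ U₀ ∧
      Cardinal.continuum ≤ #(U₀ ⧸ M.subgroupOf U₀)) ∧
    ∃ B : Subgroup G, IsOpen (B : Set G) ∧ B ≤ U₀ ∧
      Cardinal.continuum ≤ #{W : Subgroup G // B ≤ W ∧ W ≤ U₀} := by
  classical
  let Good : Subgroup G → Subgroup G → Prop := fun A B =>
    IsOpen (A : Set G) ∧ IsOpen (B : Set G) ∧ A ≤ U₀ ∧ B < A ∧
      ∀ N : Subgroup G, IsOpen (N : Set G) → N ≤ B → ∃ a ∈ A, ∀ b ∈ B, a * b * a⁻¹ ∈ N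
  have next_ : ∀ A : Subgroup G, IsOpen (A : Set G) → A ≤ U₀ → ∃ B, Good A B := by
    intro A hA hAU
    obtain ⟨W, hW, hAW⟩ : ∃ W : Subgroup G, IsOpen (W : Set G) ∧ ¬ A ≤ W := by
      by_contra hc
      push Not at hc
      exact hno ⟨A, hA, hc⟩
    obtain ⟨V, M, hVo, hVA, -, -, hV⟩ := index_step A hA (PP A hA hAU)
    refine ⟨V ⊓ W, hA, hVo.inter hW, hAU,
      lt_of_le_of_ne (inf_le_left.trans hVA) (fun e => hAW (e.ge.trans inf_le_right)),
      fun N hN hNB => ?_⟩
    obtain ⟨a, ha, hav⟩ := (hV N hN (hNB.trans inf_le_left)).1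
    exact ⟨a, ha, fun b hb => hav b hb.1⟩
  have split : ∀ A B, Good A B →
      ∃ C B', B ≤ B' ∧ B' < C ∧ C < A ∧ Good A C ∧ Good C B' := by
    intro A B hAB
    obtain ⟨hA, hB, hAU, hlt, hcon⟩ := hAB
    obtain ⟨B₁, hg₁⟩ := next_ B hB (hlt.le.trans hAU)
    obtain ⟨-, hB₁, -, hlt₁, hcon₁⟩ := hg₁
    obtain ⟨a, ha, hab⟩ := hcon B₁ hB₁ hlt₁.le
    let c : G →* G := (MulAut.conj a).toMonoidHom
    have hc : Function.Surjective c := (MulAut.conj a).surjective
    have openc : ∀ H : Subgroup G, IsOpen (H : Set G) → IsOpen (H.comap c : Set G) := fun H hH =>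
      hH.preimage (show Continuous fun x : G => a * x * a⁻¹ by fun_prop)
    have hAc : A.comap c = A := by
      ext x
      show a * x * a⁻¹ ∈ A ↔ x ∈ A
      exact ⟨fun h => by simpa [mul_assoc] using A.mul_mem (A.mul_mem (A.inv_mem ha) h) ha,
        fun h => A.mul_mem (A.mul_mem ha h) (A.inv_mem ha)⟩
    have conj_good : ∀ H K : Subgroup G,
        (∀ N : Subgroup G, IsOpen (N : Set G) → N ≤ K → ∃ d ∈ H, ∀ k ∈ K, d * k * d⁻¹ ∈ N) →
        ∀ N : Subgroup G, IsOpen (N : Set G) → N ≤ K.comap c →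
          ∃ d ∈ H.comap c, ∀ k ∈ K.comap c, d * k * d⁻¹ ∈ N := by
      intro H K hHK N hN hNK
      let N' : Subgroup G := N.comap (MulAut.conj a⁻¹).toMonoidHom
      have hN' : IsOpen (N' : Set G) :=
        hN.preimage (show Continuous fun x : G => a⁻¹ * x * a⁻¹⁻¹ by fun_prop)
      have hN'K : N' ≤ K := fun x hx => by
        have h1 : a * (a⁻¹ * x * a⁻¹⁻¹) * a⁻¹ ∈ K := hNK hx
        simpa [mul_assoc] using h1
      obtain ⟨d, hd, hdk⟩ := hHK N' hN' hN'K
      refine ⟨a⁻¹ * d * a, ?_, fun k hk => ?_⟩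
      · show a * (a⁻¹ * d * a) * a⁻¹ ∈ H
        simpa [mul_assoc] using hd
      · have h2 : a⁻¹ * (d * (a * k * a⁻¹) * d⁻¹) * a⁻¹⁻¹ ∈ N := hdk _ hk
        simpa [mul_assoc] using h2
    have lt_comap : ∀ H K : Subgroup G, H < K → H.comap c < K.comap c := fun H K h =>
      (Subgroup.comap_lt_comap_of_surjective hc).2 h
    have hCA : B.comap c < A := hAc ▸ lt_comap B A hlt
    refine ⟨B.comap c, B₁.comap c, fun b hb => hab b hb, lt_comap _ _ hlt₁, hCA,
      ⟨hA, openc B hB, hAU, hCA, fun N hN hNB => ?_⟩,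
      ⟨openc B hB, openc B₁ hB₁, hCA.le.trans hAU, lt_comap _ _ hlt₁, conj_good B B₁ hcon₁⟩⟩
    obtain ⟨d, hd, hdk⟩ := conj_good A B hcon N hN hNB
    exact ⟨d, hAc ▸ hd, hdk⟩
  obtain ⟨V, M, hVo, hVU, hMo, hMU, hV⟩ := index_step U₀ hU₀ (PP U₀ hU₀ le_rfl)
  obtain ⟨B₀, hg₀⟩ := next_ V hVo hVU
  have hc := continuum_between Good (fun A B h => h.2.2.2.1) split hg₀
  let emb : {W : Subgroup G // B₀ ≤ W ∧ W ≤ V} → U₀ ⧸ M.subgroupOf U₀ := fun W =>
    let h := (hV W.1 (Subgroup.isOpen_mono W.2.1 hg₀.2.1) W.2.2).2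
    ((⟨h.choose, h.choose_spec.1⟩ : U₀) : U₀ ⧸ M.subgroupOf U₀)
  have hemb : Function.Injective emb := by
    intro W W' e
    have h := (hV W.1 (Subgroup.isOpen_mono W.2.1 hg₀.2.1) W.2.2).2
    have h' := (hV W'.1 (Subgroup.isOpen_mono W'.2.1 hg₀.2.1) W'.2.2).2
    have hm := QuotientGroup.eq.1 e
    rw [Subgroup.mem_subgroupOf] at hm
    apply Subtype.ext
    ext x
    rw [h.choose_spec.2 x, h'.choose_spec.2 x]
    refine and_congr_right fun _ => ?_
    set a := h.choose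
    set b := h'.choose
    have hm' : a⁻¹ * b ∈ M := by simpa using hm
    constructor
    · intro hx
      simpa [mul_assoc] using M.mul_mem (M.mul_mem (M.inv_mem hm') hx) hm'
    · intro hx
      simpa [mul_assoc] using M.mul_mem (M.mul_mem hm' hx) (M.inv_mem hm')
  exact ⟨⟨M, hMo, hMU, hc.trans (Cardinal.mk_le_of_injective hemb)⟩,
    B₀, hg₀.2.1, hg₀.2.2.2.1.le.trans hVU,
    hc.trans (Cardinal.mk_le_of_injective (f := fun W =>
      (⟨W.1, W.2.1, W.2.2.trans hVU⟩ : {W : Subgroup G // B₀ ≤ W ∧ W ≤ U₀}))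
      fun W W' e => Subtype.ext (congrArg (fun z => z.1) e))⟩

end Vale.Agent.P323
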